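import Vale.Agent.Lib.P160.Sparse4

namespace Vale.Agent.Lib.P160

/-- The constant for parameter `q`. -/
noncomputable def constD (q : ℕ) : ℝ := (64 / 3 : ℝ) ^ (2 * sOne q) * 2 ^ (72 * q ^ 2)

theorem one_le_constD (q : ℕ) : (1 : ℝ) ≤ constD q := by
  unfold constD
  have h1 : (1 : ℝ) ≤ (64 / 3 : ℝ) ^ (2 * sOne q) := one_le_pow₀ (by norm_num)
  have h2 : (1 : ℝ) ≤ (2 : ℝ) ^ (72 * q ^ 2) := one_le_pow₀ (by norm_num)
  calc (1 : ℝ) = 1 * 1 := (one_mul 1).symm
    _ ≤ (64 / 3 : ℝ) ^ (2 * sOne q) * 2 ^ (72 * q ^ 2) :=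
        mul_le_mul h1 h2 zero_le_one (by positivity)

theorem pow_sOne_le_constD (q : ℕ) : (64 / 3 : ℝ) ^ (2 * sOne q) ≤ constD q := by
  unfold constD
  have h2 : (1 : ℝ) ≤ (2 : ℝ) ^ (72 * q ^ 2) := one_le_pow₀ (by norm_num)
  calc (64 / 3 : ℝ) ^ (2 * sOne q) = (64 / 3 : ℝ) ^ (2 * sOne q) * 1 := (mul_one _).symm
    _ ≤ (64 / 3 : ℝ) ^ (2 * sOne q) * 2 ^ (72 * q ^ 2) :=
        mul_le_mul_of_nonneg_left h2 (by positivity)

theorem two_pow_le_constD (q : ℕ) : (2 : ℝ) ^ (72 * q ^ 2) ≤ constD q := by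
  unfold constD
  have h1 : (1 : ℝ) ≤ (64 / 3 : ℝ) ^ (2 * sOne q) := one_le_pow₀ (by norm_num)
  calc (2 : ℝ) ^ (72 * q ^ 2) = 1 * (2 : ℝ) ^ (72 * q ^ 2) := (one_mul _).symm
    _ ≤ (64 / 3 : ℝ) ^ (2 * sOne q) * 2 ^ (72 * q ^ 2) :=
        mul_le_mul_of_nonneg_right h1 (by positivity)

theorem dense_term_bound {q n s r f : ℕ} (h3 : 3 ≤ s) (h4 : q * s + 2 * n ≤ q * n)
    (hr : r + 1 ≤ s) (hf : f + s + r = n) :
    min (Lr s ^ f) (Lr s ^ f * 2 ^ s / 2 ^ (Nat.choose (r + 1) 2)) ≤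
      constD q * (3 / 8) ^ n * ((1 / 8) ^ s * (1 / 8) ^ r) := by
  have hA1 : (1 : ℝ) ≤ constD q := one_le_constD q
  rw [← pow_add]
  have e1 : q * f + q * s + q * r = q * n := by rw [← hf]; ring
  rcases le_or_gt s (sOne q) with hs | hs
  · refine (min_le_left _ _).trans ?_
    have hpow : Lr s ^ f ≤ (3 / 8 : ℝ) ^ f :=
      pow_le_pow_left₀ (Lr_pos s).le (Lr_le_of_three_le h3) _
    have hn : (3 / 8 : ℝ) ^ n = (3 / 8) ^ f * (3 / 8) ^ (s + r) := by
      rw [← pow_add]; congr 1; omega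
    have hx : (3 / 8 : ℝ) ^ (s + r) * (1 / 8) ^ (s + r) = 1 / (64 / 3) ^ (s + r) := by
      rw [← mul_pow, ← _root_.one_div_pow]
      congr 1
      norm_num
    have hle : (64 / 3 : ℝ) ^ (s + r) ≤ constD q :=
      (pow_le_pow_right₀ (by norm_num) (by omega)).trans (pow_sOne_le_constD q)
    have hpos : (0 : ℝ) < (64 / 3) ^ (s + r) := by positivity
    have h1 : (1 : ℝ) ≤ constD q * (1 / (64 / 3) ^ (s + r)) := by
      rw [mul_one_div, le_div_iff₀ hpos, one_mul]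
      exact hle
    calc Lr s ^ f ≤ (3 / 8 : ℝ) ^ f := hpow
      _ = (3 / 8 : ℝ) ^ f * 1 := (mul_one _).symm
      _ ≤ (3 / 8 : ℝ) ^ f * (constD q * (1 / (64 / 3) ^ (s + r))) :=
          mul_le_mul_of_nonneg_left h1 (by positivity)
      _ = constD q * (3 / 8) ^ n * (1 / 8) ^ (s + r) := by
          rw [hn, ← hx]; ring
  · have hL : Lr s ≤ (3 / 64 : ℝ) ^ q := (Lr_antitone hs.le).trans (Lr_sOne q)
    rcases le_or_gt (2 * r + s) n with hrn | hrn
    · refine (min_le_left _ _).trans ?_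
      have hpow : Lr s ^ f ≤ ((3 / 64 : ℝ) ^ q) ^ f := pow_le_pow_left₀ (Lr_pos s).le hL _
      have hqf : n ≤ q * f := by
        have e2 : q * r ≤ q * f := Nat.mul_le_mul_left q (by omega)
        omega
      have h1 : ((3 / 64 : ℝ) ^ q) ^ f ≤ (3 / 64 : ℝ) ^ n := by
        rw [← pow_mul]
        exact pow_le_pow_of_le_one (by norm_num) (by norm_num) hqf
      have h2 : (1 / 8 : ℝ) ^ n ≤ (1 / 8) ^ (s + r) :=
        pow_le_pow_of_le_one (by norm_num) (by norm_num) (by omega)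
      have h3' : (3 / 64 : ℝ) ^ n = (3 / 8) ^ n * (1 / 8) ^ n := by
        rw [← mul_pow]; norm_num
      calc Lr s ^ f ≤ ((3 / 64 : ℝ) ^ q) ^ f := hpow
        _ ≤ (3 / 64 : ℝ) ^ n := h1
        _ = (3 / 8) ^ n * (1 / 8) ^ n := h3'
        _ ≤ (3 / 8) ^ n * (1 / 8) ^ (s + r) := mul_le_mul_of_nonneg_left h2 (by positivity)
        _ = 1 * ((3 / 8) ^ n * (1 / 8) ^ (s + r)) := (one_mul _).symm
        _ ≤ constD q * ((3 / 8) ^ n * (1 / 8) ^ (s + r)) :=
            mul_le_mul_of_nonneg_right hA1 (by positivity)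
        _ = constD q * (3 / 8) ^ n * (1 / 8) ^ (s + r) := by ring
    · refine (min_le_right _ _).trans ?_
      have hq : 1 ≤ q := by
        rcases Nat.eq_zero_or_pos q with h0 | h0
        · subst h0
          simp only [Nat.zero_mul, Nat.zero_add] at h4
          omega
        · exact h0
      have hqr : n + 1 ≤ q * r := by
        have hfr : f + 1 ≤ r := by omega
        have e2 : q * f + q ≤ q * r := by
          have := Nat.mul_le_mul_left q hfr
          rw [Nat.mul_add, Nat.mul_one] at this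
          exact this
        omega
      have hkey : (2 : ℝ) ^ (6 * n) ≤ constD q * 2 ^ (Nat.choose (r + 1) 2) := by
        rcases le_or_gt (12 * q) r with h12 | h12
        · have hch : 6 * n ≤ Nat.choose (r + 1) 2 := by
            rw [Nat.choose_two_right, Nat.le_div_iff_mul_le (by norm_num)]
            have h5 := Nat.mul_le_mul_right r h12
            simp only [Nat.add_sub_cancel]
            nlinarith
          calc (2 : ℝ) ^ (6 * n) ≤ 2 ^ (Nat.choose (r + 1) 2) :=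
                pow_le_pow_right₀ (by norm_num) hch
            _ = 1 * 2 ^ (Nat.choose (r + 1) 2) := (one_mul _).symm
            _ ≤ constD q * 2 ^ (Nat.choose (r + 1) 2) :=
                mul_le_mul_of_nonneg_right hA1 (by positivity)
        · have hn6 : 6 * n ≤ 72 * q ^ 2 := by
            have h5 : q * r ≤ q * (12 * q) := Nat.mul_le_mul_left q h12.le
            nlinarith
          have h1 : (1 : ℝ) ≤ 2 ^ (Nat.choose (r + 1) 2) := one_le_pow₀ (by norm_num)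
          calc (2 : ℝ) ^ (6 * n) ≤ 2 ^ (72 * q ^ 2) := pow_le_pow_right₀ (by norm_num) hn6
            _ ≤ constD q := two_pow_le_constD q
            _ = constD q * 1 := (mul_one _).symm
            _ ≤ constD q * 2 ^ (Nat.choose (r + 1) 2) :=
                mul_le_mul_of_nonneg_left h1 (by linarith)
      have hLr1 : Lr s ≤ 1 := (Lr_le_of_three_le h3).trans (by norm_num)
      have hpow1 : Lr s ^ f ≤ 1 := pow_le_one₀ (Lr_pos s).le hLr1
      have hC : (0 : ℝ) < 2 ^ (Nat.choose (r + 1) 2) := by positivity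
      have hsn : s ≤ n := by omega
      have hsrn : s + r ≤ n := by omega
      have ha : (3 / 8 : ℝ) ^ n * (8 / 3) ^ n = 1 := by
        rw [← mul_pow]; norm_num
      have hb : (1 / 8 : ℝ) ^ (s + r) * 8 ^ (s + r) = 1 := by
        rw [← mul_pow]; norm_num
      have h2s : (2 : ℝ) ^ s ≤ 2 ^ n := pow_le_pow_right₀ (by norm_num) hsn
      have h83 : (8 / 3 : ℝ) ^ n ≤ 2 ^ (2 * n) := by
        rw [pow_mul]
        exact pow_le_pow_left₀ (by norm_num) (by norm_num) n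
      have h8 : (8 : ℝ) ^ (s + r) ≤ 2 ^ (3 * n) := by
        calc (8 : ℝ) ^ (s + r) ≤ 8 ^ n := pow_le_pow_right₀ (by norm_num) hsrn
          _ = 2 ^ (3 * n) := by rw [pow_mul]; norm_num
      have hsmall : (2 : ℝ) ^ s * (8 / 3) ^ n * 8 ^ (s + r) ≤ 2 ^ (6 * n) := by
        have e : (2 : ℝ) ^ (6 * n) = 2 ^ n * 2 ^ (2 * n) * 2 ^ (3 * n) := by
          rw [← pow_add, ← pow_add]; congr 1; ring
        rw [e]
        exact mul_le_mul (mul_le_mul h2s h83 (by positivity) (by positivity)) h8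
          (by positivity) (by positivity)
      have hab : (0 : ℝ) ≤ (3 / 8 : ℝ) ^ n * (1 / 8) ^ (s + r) := by positivity
      have hfin : (2 : ℝ) ^ s ≤
          constD q * (3 / 8) ^ n * (1 / 8) ^ (s + r) * 2 ^ (Nat.choose (r + 1) 2) := by
        have e : (2 : ℝ) ^ s =
            ((2 : ℝ) ^ s * (8 / 3) ^ n * 8 ^ (s + r)) * ((3 / 8 : ℝ) ^ n * (1 / 8) ^ (s + r)) := by
          have e' : ((2 : ℝ) ^ s * (8 / 3) ^ n * 8 ^ (s + r)) *
              ((3 / 8 : ℝ) ^ n * (1 / 8) ^ (s + r)) =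
              2 ^ s * ((3 / 8 : ℝ) ^ n * (8 / 3) ^ n) * ((1 / 8 : ℝ) ^ (s + r) * 8 ^ (s + r)) := by
            ring
          rw [e', ha, hb]; ring
        calc (2 : ℝ) ^ s =
            ((2 : ℝ) ^ s * (8 / 3) ^ n * 8 ^ (s + r)) * ((3 / 8 : ℝ) ^ n * (1 / 8) ^ (s + r)) := e
          _ ≤ 2 ^ (6 * n) * ((3 / 8 : ℝ) ^ n * (1 / 8) ^ (s + r)) :=
              mul_le_mul_of_nonneg_right hsmall hab
          _ ≤ (constD q * 2 ^ (Nat.choose (r + 1) 2)) * ((3 / 8 : ℝ) ^ n * (1 / 8) ^ (s + r)) :=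
              mul_le_mul_of_nonneg_right hkey hab
          _ = constD q * (3 / 8) ^ n * (1 / 8) ^ (s + r) * 2 ^ (Nat.choose (r + 1) 2) := by ring
      calc Lr s ^ f * 2 ^ s / 2 ^ (Nat.choose (r + 1) 2)
          ≤ 1 * 2 ^ s / 2 ^ (Nat.choose (r + 1) 2) :=
            div_le_div_of_nonneg_right (mul_le_mul_of_nonneg_right hpow1 (by positivity)) hC.le
        _ = 2 ^ s / 2 ^ (Nat.choose (r + 1) 2) := by rw [one_mul]
        _ ≤ constD q * (3 / 8) ^ n * (1 / 8) ^ (s + r) := by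
            rw [div_le_iff₀ hC]; exact hfin

end Vale.Agent.Lib.P160
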