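import Vale.Agent.Lib.P160.Sparse4

namespace Vale.Agent.Lib.P160

/-- The absolute constant of the logarithmic regime. -/
noncomputable def constL : ℝ := (64 / 3 : ℝ) ^ (2 ^ 41)

theorem one_le_constL : (1 : ℝ) ≤ constL := by
  unfold constL
  exact one_le_pow₀ (by norm_num)

/-- `Lr s ^ 2 * s ≤ 1`. -/
theorem Lr_sq_mul_le (s : ℕ) : Lr s ^ 2 * (s : ℝ) ≤ 1 := by
  obtain ⟨m, hm | hm⟩ : ∃ m, s = 2 * m ∨ s = 2 * m + 1 := ⟨s / 2, by omega⟩
  · subst hm
    have h := Lr_even_sq m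
    have hp : 0 ≤ Lr (2 * m) ^ 2 := by positivity
    push_cast
    nlinarith
  · subst hm
    have h := Lr_even_sq m
    have ha : Lr (2 * m + 1) ≤ Lr (2 * m) := Lr_antitone (by omega)
    have hpos := Lr_pos (2 * m + 1)
    have hsq : Lr (2 * m + 1) ^ 2 ≤ Lr (2 * m) ^ 2 := pow_le_pow_left₀ hpos.le ha 2
    push_cast
    have hm0 : (0 : ℝ) ≤ 2 * (m : ℝ) + 1 := by positivity
    calc Lr (2 * m + 1) ^ 2 * (2 * (m : ℝ) + 1) ≤ Lr (2 * m) ^ 2 * (2 * (m : ℝ) + 1) :=
          mul_le_mul_of_nonneg_right hsq hm0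
      _ ≤ 1 := h

theorem log_term_bound {n s r f : ℕ} (h3 : 3 ≤ s)
    (hk : 40 * (n : ℝ) ≤ ((n - s : ℕ) : ℝ) * Real.logb 2 n)
    (hr : r + 1 ≤ s) (hf : f + s + r = n) :
    min (Lr s ^ f) (Lr s ^ f * 2 ^ s / 2 ^ (Nat.choose (r + 1) 2)) ≤
      constL * (3 / 8) ^ n * ((1 / 8) ^ s * (1 / 8) ^ r) := by
  have hA1 : (1 : ℝ) ≤ constL := one_le_constL
  rw [← pow_add]
  have hks : n - s = f + r := by omega
  have hnpos : (0 : ℝ) < (n : ℝ) := by exact_mod_cast (by omega : 0 < n)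
  have hl2 : (0 : ℝ) < Real.log 2 := Real.log_pos (by norm_num)
  have hl2' : (1 / 2 : ℝ) ≤ Real.log 2 := by
    have := Real.log_two_gt_d9
    linarith
  have hlam : 0 ≤ Real.log n := Real.log_natCast_nonneg n
  have hk' : 40 * (n : ℝ) * Real.log 2 ≤ ((f : ℝ) + r) * Real.log n := by
    rw [hks] at hk
    have e : Real.logb 2 n = Real.log n / Real.log 2 := rfl
    rw [e] at hk
    push_cast at hk
    rw [← mul_div_assoc, le_div_iff₀ hl2] at hk
    exact hk
  rcases le_or_gt s 1099511627776 with hs | hs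
  · -- Case 1: `s ≤ 2 ^ 40`
    refine (min_le_left _ _).trans ?_
    have hpow : Lr s ^ f ≤ (3 / 8 : ℝ) ^ f :=
      pow_le_pow_left₀ (Lr_pos s).le (Lr_le_of_three_le h3) _
    have hn : (3 / 8 : ℝ) ^ n = (3 / 8) ^ f * (3 / 8) ^ (s + r) := by
      rw [← pow_add]; congr 1; omega
    have hx : (3 / 8 : ℝ) ^ (s + r) * (1 / 8) ^ (s + r) = 1 / (64 / 3) ^ (s + r) := by
      rw [← mul_pow, ← _root_.one_div_pow]
      congr 1
      norm_num
    have h241 : (2 : ℕ) ^ 41 = 2199023255552 := by norm_num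
    have hle : (64 / 3 : ℝ) ^ (s + r) ≤ constL := by
      unfold constL
      exact pow_le_pow_right₀ (by norm_num) (by rw [h241]; omega)
    have hpos : (0 : ℝ) < (64 / 3) ^ (s + r) := by positivity
    have h1 : (1 : ℝ) ≤ constL * (1 / (64 / 3) ^ (s + r)) := by
      rw [mul_one_div, le_div_iff₀ hpos, one_mul]
      exact hle
    calc Lr s ^ f ≤ (3 / 8 : ℝ) ^ f := hpow
      _ = (3 / 8 : ℝ) ^ f * 1 := (mul_one _).symm
      _ ≤ (3 / 8 : ℝ) ^ f * (constL * (1 / (64 / 3) ^ (s + r))) :=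
          mul_le_mul_of_nonneg_left h1 (by positivity)
      _ = constL * (3 / 8) ^ n * (1 / 8) ^ (s + r) := by
          rw [hn, ← hx]; ring
  · rcases le_or_gt f r with hfr | hfr
    · -- Case 2: `2 ^ 40 < s`, `f ≤ r`
      refine (min_le_right _ _).trans ?_
      have hsqrt : Real.log n ≤ 2 * Real.sqrt n := by
        have h1 : Real.log (Real.sqrt n) ≤ Real.sqrt n - 1 :=
          Real.log_le_sub_one_of_pos (Real.sqrt_pos.mpr hnpos)
        rw [Real.log_sqrt hnpos.le] at h1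
        linarith
      have hlog2 : Real.log n ^ 2 ≤ 4 * n := by
        have h2 : Real.log n ^ 2 ≤ (2 * Real.sqrt n) ^ 2 := pow_le_pow_left₀ hlam hsqrt 2
        have h3 : (2 * Real.sqrt n) ^ 2 = 4 * n := by
          rw [mul_pow, Real.sq_sqrt hnpos.le]; norm_num
        linarith
      have hkk : 100 * (n : ℝ) ≤ ((f : ℝ) + r) ^ 2 := by
        have hA : (40 * (n : ℝ) * Real.log 2) ^ 2 ≤ (((f : ℝ) + r) * Real.log n) ^ 2 :=
          pow_le_pow_left₀ (by positivity) hk' 2
        have hB : (((f : ℝ) + r) * Real.log n) ^ 2 ≤ ((f : ℝ) + r) ^ 2 * (4 * n) := by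
          rw [mul_pow]
          exact mul_le_mul_of_nonneg_left hlog2 (by positivity)
        have hC : (1 / 4 : ℝ) ≤ Real.log 2 ^ 2 := by nlinarith
        have hD : (4 * (n : ℝ)) * (400 * (n : ℝ) * Real.log 2 ^ 2) ≤
            (4 * (n : ℝ)) * ((f : ℝ) + r) ^ 2 := by
          calc (4 * (n : ℝ)) * (400 * (n : ℝ) * Real.log 2 ^ 2)
              = (40 * (n : ℝ) * Real.log 2) ^ 2 := by ring
            _ ≤ ((f : ℝ) + r) ^ 2 * (4 * n) := hA.trans hB
            _ = (4 * (n : ℝ)) * ((f : ℝ) + r) ^ 2 := by ring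
        have hE : 400 * (n : ℝ) * Real.log 2 ^ 2 ≤ ((f : ℝ) + r) ^ 2 :=
          le_of_mul_le_mul_left hD (by positivity)
        have hF : 400 * (n : ℝ) * (1 / 4) ≤ 400 * (n : ℝ) * Real.log 2 ^ 2 :=
          mul_le_mul_of_nonneg_left hC (by positivity)
        linarith
      have hnat : 100 * n ≤ (f + r) ^ 2 := by exact_mod_cast hkk
      have hch : 6 * n ≤ Nat.choose (r + 1) 2 := by
        rw [Nat.choose_two_right, Nat.le_div_iff_mul_le (by norm_num)]
        simp only [Nat.add_sub_cancel]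
        have h4 : (f + r) ^ 2 ≤ (2 * r) ^ 2 := Nat.pow_le_pow_left (by omega) 2
        nlinarith
      have hkey : (2 : ℝ) ^ (6 * n) ≤ constL * 2 ^ (Nat.choose (r + 1) 2) := by
        calc (2 : ℝ) ^ (6 * n) ≤ 2 ^ (Nat.choose (r + 1) 2) :=
              pow_le_pow_right₀ (by norm_num) hch
          _ = 1 * 2 ^ (Nat.choose (r + 1) 2) := (one_mul _).symm
          _ ≤ constL * 2 ^ (Nat.choose (r + 1) 2) :=
              mul_le_mul_of_nonneg_right hA1 (by positivity)
      have hLr1 : Lr s ≤ 1 := (Lr_le_of_three_le h3).trans (by norm_num)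
      have hpow1 : Lr s ^ f ≤ 1 := pow_le_one₀ (Lr_pos s).le hLr1
      have hC : (0 : ℝ) < 2 ^ (Nat.choose (r + 1) 2) := by positivity
      have hsn : s ≤ n := by omega
      have hsrn : s + r ≤ n := by omega
      have ha : (3 / 8 : ℝ) ^ n * (8 / 3) ^ n = 1 := by
        rw [← mul_pow]; norm_num
      have hb : (1 / 8 : ℝ) ^ (s + r) * 8 ^ (s + r) = 1 := by
        rw [← mul_pow]; norm_num
      have h2s : (2 : ℝ) ^ s ≤ 2 ^ n := pow_le_pow_right₀ (by norm_num) hsn
      have h83 : (8 / 3 : ℝ) ^ n ≤ 2 ^ (2 * n) := by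
        rw [pow_mul]
        exact pow_le_pow_left₀ (by norm_num) (by norm_num) n
      have h8 : (8 : ℝ) ^ (s + r) ≤ 2 ^ (3 * n) := by
        calc (8 : ℝ) ^ (s + r) ≤ 8 ^ n := pow_le_pow_right₀ (by norm_num) hsrn
          _ = 2 ^ (3 * n) := by rw [pow_mul]; norm_num
      have hsmall : (2 : ℝ) ^ s * (8 / 3) ^ n * 8 ^ (s + r) ≤ 2 ^ (6 * n) := by
        have e : (2 : ℝ) ^ (6 * n) = 2 ^ n * 2 ^ (2 * n) * 2 ^ (3 * n) := by
          rw [← pow_add, ← pow_add]; congr 1; ring
        rw [e]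
        exact mul_le_mul (mul_le_mul h2s h83 (by positivity) (by positivity)) h8
          (by positivity) (by positivity)
      have hab : (0 : ℝ) ≤ (3 / 8 : ℝ) ^ n * (1 / 8) ^ (s + r) := by positivity
      have hfin : (2 : ℝ) ^ s ≤
          constL * (3 / 8) ^ n * (1 / 8) ^ (s + r) * 2 ^ (Nat.choose (r + 1) 2) := by
        have e : (2 : ℝ) ^ s =
            ((2 : ℝ) ^ s * (8 / 3) ^ n * 8 ^ (s + r)) * ((3 / 8 : ℝ) ^ n * (1 / 8) ^ (s + r)) := by
          have e' : ((2 : ℝ) ^ s * (8 / 3) ^ n * 8 ^ (s + r)) *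
              ((3 / 8 : ℝ) ^ n * (1 / 8) ^ (s + r)) =
              2 ^ s * ((3 / 8 : ℝ) ^ n * (8 / 3) ^ n) * ((1 / 8 : ℝ) ^ (s + r) * 8 ^ (s + r)) := by
            ring
          rw [e', ha, hb]; ring
        calc (2 : ℝ) ^ s =
            ((2 : ℝ) ^ s * (8 / 3) ^ n * 8 ^ (s + r)) * ((3 / 8 : ℝ) ^ n * (1 / 8) ^ (s + r)) := e
          _ ≤ 2 ^ (6 * n) * ((3 / 8 : ℝ) ^ n * (1 / 8) ^ (s + r)) :=
              mul_le_mul_of_nonneg_right hsmall hab
          _ ≤ (constL * 2 ^ (Nat.choose (r + 1) 2)) * ((3 / 8 : ℝ) ^ n * (1 / 8) ^ (s + r)) :=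
              mul_le_mul_of_nonneg_right hkey hab
          _ = constL * (3 / 8) ^ n * (1 / 8) ^ (s + r) * 2 ^ (Nat.choose (r + 1) 2) := by ring
      calc Lr s ^ f * 2 ^ s / 2 ^ (Nat.choose (r + 1) 2)
          ≤ 1 * 2 ^ s / 2 ^ (Nat.choose (r + 1) 2) :=
            div_le_div_of_nonneg_right (mul_le_mul_of_nonneg_right hpow1 (by positivity)) hC.le
        _ = 2 ^ s / 2 ^ (Nat.choose (r + 1) 2) := by rw [one_mul]
        _ ≤ constL * (3 / 8) ^ n * (1 / 8) ^ (s + r) := by
            rw [div_le_iff₀ hC]; exact hfin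
    · -- Case 3: `2 ^ 40 < s`, `r < f`
      refine (min_le_left _ _).trans ?_
      have hspos : (0 : ℝ) < (s : ℝ) := by exact_mod_cast (by omega : 0 < s)
      have hkey : 10 * (n : ℝ) * Real.log 2 ≤ (f : ℝ) * Real.log s := by
        rcases le_or_gt n (s * s) with hsq | hsq
        · have h1 : Real.log n ≤ 2 * Real.log s := by
            have h0 : Real.log (n : ℝ) ≤ Real.log ((s : ℝ) * s) :=
              Real.log_le_log hnpos (by exact_mod_cast hsq)
            rw [Real.log_mul hspos.ne' hspos.ne'] at h0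
            linarith
          have h2 : ((f : ℝ) + r) ≤ 2 * f := by
            have h0 : f + r ≤ 2 * f := by omega
            exact_mod_cast h0
          have h3 : ((f : ℝ) + r) * Real.log n ≤ 2 * f * (2 * Real.log s) := by
            calc ((f : ℝ) + r) * Real.log n ≤ 2 * f * Real.log n :=
                  mul_le_mul_of_nonneg_right h2 hlam
              _ ≤ 2 * f * (2 * Real.log s) := mul_le_mul_of_nonneg_left h1 (by positivity)
          linarith
        · have h1 : 3 * s ≤ s * s := Nat.mul_le_mul_right s h3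
          have h1' : 3 * s < n := lt_of_le_of_lt h1 hsq
          have h2 : n ≤ 3 * f := by omega
          have h3' : (40 : ℝ) * Real.log 2 ≤ Real.log s := by
            have h0 : Real.log ((2 : ℝ) ^ 40) ≤ Real.log s :=
              Real.log_le_log (by positivity) (by
                have h00 : (2 : ℕ) ^ 40 ≤ s := by norm_num; omega
                exact_mod_cast h00)
            rw [Real.log_pow] at h0
            push_cast at h0
            linarith
          have h4 : (n : ℝ) ≤ 3 * f := by exact_mod_cast h2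
          have h5 : (f : ℝ) * (40 * Real.log 2) ≤ f * Real.log s :=
            mul_le_mul_of_nonneg_left h3' (by positivity)
          have h6 : (n : ℝ) * Real.log 2 ≤ 3 * f * Real.log 2 :=
            mul_le_mul_of_nonneg_right h4 hl2.le
          have h7 : 0 ≤ (f : ℝ) * Real.log 2 := by positivity
          linarith
      have hpow10 : (2 : ℝ) ^ (10 * n) ≤ (s : ℝ) ^ f := by
        have h1 : Real.log ((2 : ℝ) ^ (10 * n)) ≤ Real.log ((s : ℝ) ^ f) := by
          rw [Real.log_pow, Real.log_pow]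
          push_cast
          linarith
        exact (Real.log_le_log_iff (by positivity) (by positivity)).mp h1
      have hF1 := Lr_sq_mul_le s
      have hLsq : Lr s ^ 2 ≤ 1 / (s : ℝ) := by
        rw [le_div_iff₀ hspos]; exact hF1
      have h1 : (Lr s ^ f) ^ 2 ≤ (1 / (s : ℝ)) ^ f := by
        rw [← pow_mul, mul_comm, pow_mul]
        exact pow_le_pow_left₀ (by positivity) hLsq f
      have h2 : (1 / (s : ℝ)) ^ f ≤ (1 / (2 : ℝ) ^ (10 * n)) := by
        rw [one_div_pow]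
        exact one_div_le_one_div_of_le (by positivity) hpow10
      have h3'' : (1 / (2 : ℝ) ^ (10 * n)) ≤ ((3 / 64 : ℝ) ^ n) ^ 2 := by
        have e1 : (1 / (2 : ℝ) ^ (10 * n)) = (1 / 1024 : ℝ) ^ n := by
          rw [pow_mul, ← one_div_pow]; norm_num
        have e2 : ((3 / 64 : ℝ) ^ n) ^ 2 = (9 / 4096 : ℝ) ^ n := by
          rw [← pow_mul, mul_comm, pow_mul]; norm_num
        rw [e1, e2]
        exact pow_le_pow_left₀ (by norm_num) (by norm_num) n
      have h4 : Lr s ^ f ≤ (3 / 64 : ℝ) ^ n := by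
        have h0 := h1.trans (h2.trans h3'')
        exact (pow_le_pow_iff_left₀ (pow_nonneg (Lr_pos s).le f) (by positivity) (by norm_num)).mp h0
      have h2' : (1 / 8 : ℝ) ^ n ≤ (1 / 8) ^ (s + r) :=
        pow_le_pow_of_le_one (by norm_num) (by norm_num) (by omega)
      have h3' : (3 / 64 : ℝ) ^ n = (3 / 8) ^ n * (1 / 8) ^ n := by
        rw [← mul_pow]; norm_num
      calc Lr s ^ f ≤ (3 / 64 : ℝ) ^ n := h4
        _ = (3 / 8) ^ n * (1 / 8) ^ n := h3'
        _ ≤ (3 / 8) ^ n * (1 / 8) ^ (s + r) := mul_le_mul_of_nonneg_left h2' (by positivity)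
        _ = 1 * ((3 / 8) ^ n * (1 / 8) ^ (s + r)) := (one_mul _).symm
        _ ≤ constL * ((3 / 8) ^ n * (1 / 8) ^ (s + r)) :=
            mul_le_mul_of_nonneg_right hA1 (by positivity)
        _ = constL * (3 / 8) ^ n * (1 / 8) ^ (s + r) := by ring

end Vale.Agent.Lib.P160
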